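import Mathlib

/-!
P201: disproof of the zero divisor conjecture over F_2.  Core definitions (captain helper201).
See `PROOF.md` in this folder.
-/

namespace Vale.Agent.P201.Z

open Finset

/-! ## Part A: the pattern -/

/-- Pattern: rows `I`, types `K`, Laurent polynomials over F_2. -/
structure Pat where
  I : Type
  K : Type
  [fI : Fintype I]
  [fK : Fintype K]
  [dI : DecidableEq I]
  [dK : DecidableEq K]
  P : I → AddMonoidAlgebra (ZMod 2) ℤ
  Q : K → AddMonoidAlgebra (ZMod 2) ℤ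

attribute [instance] Pat.fI Pat.fK Pat.dI Pat.dK

/-- cells of row `i` in type `k` -/
noncomputable def Pat.N (p : Pat) (i : p.I) (k : p.K) : Finset ℤ := (p.P i * p.Q k).coeff.support

noncomputable def Pat.Ttot (p : Pat) : ℕ := ∑ k, ∑ i, (p.N i k).card

/-- number of 4-cycles: `∑_{i,i',δ} c(i,i',δ)^2`, `c(i,i',δ) = ∑_k #{(h,h') : h' - h = δ}` -/
noncomputable def Pat.W4 (p : Pat) : ℕ :=
  ∑ k, ∑ k', ∑ i, ∑ i',
    (((p.N i k ×ˢ p.N i' k) ×ˢ (p.N i k' ×ˢ p.N i' k')).filter
      (fun x => x.1.2 - x.1.1 = x.2.2 - x.2.1)).card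

/-- augmentation -/
noncomputable def aug (f : AddMonoidAlgebra (ZMod 2) ℤ) : ZMod 2 := f.coeff.sum fun _ a => a

structure Pat.Good (p : Pat) : Prop where
  pos : 0 < p.Ttot
  w : 8 * p.W4 ≤ p.Ttot ^ 2
  aug : ∑ k, aug (p.Q k) = 1
  ne : ∃ i, p.P i ≠ 0

/-- PART A -/
def StmtA : Prop := ∃ p : Pat, p.Good

/-! ## Blocks, cells, ports -/

abbrev Blk (p : Pat) (n : ℕ) : Type := p.K × Fin n

/-- cells of the product: row, block, height -/
abbrev Cel (p : Pat) (n : ℕ) : Type := Σ x : p.I × Blk p n, {h : ℤ // h ∈ p.N x.1 x.2.1}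

variable {p : Pat} {n : ℕ}

noncomputable def row (c : Cel p n) : p.I := c.1.1
noncomputable def blk (c : Cel p n) : Blk p n := c.1.2
noncomputable def ht (c : Cel p n) : ℤ := c.2.1

/-- a port is a cell in copy 1 (`true`) or copy 2 (`false`) -/
abbrev Port (p : Pat) (n : ℕ) : Type := Cel p n × Bool

/-- row and copy of a port -/
noncomputable def rc (q : Port p n) : p.I × Bool := (row q.1, q.2)

/-- the matching involution on ports: copy-1 cell `c` with copy-2 cell `σ c` -/
noncomputable def mt (σ : Equiv.Perm (Cel p n)) (q : Port p n) : Port p n :=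
  if q.2 then (σ q.1, false) else (σ.symm q.1, true)

/-- reduced walk of the matching graph, given by its leaving ports -/
def IsWalk (σ : Equiv.Perm (Cel p n)) (l : List (Port p n)) : Prop :=
  l.IsChain (fun a b => blk (mt σ a).1 = blk b.1 ∧ b ≠ mt σ a)

/-- closed cyclically reduced walk -/
def IsCWalk (σ : Equiv.Perm (Cel p n)) (l : List (Port p n)) : Prop :=
  IsWalk σ l ∧ ∀ a ∈ l.getLast?, ∀ b ∈ l.head?, blk (mt σ a).1 = blk b.1 ∧ b ≠ mt σ a

/-- girth at least `g` -/
def Girth (σ : Equiv.Perm (Cel p n)) (g : ℕ) : Prop :=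
  ∀ l : List (Port p n), l ≠ [] → IsCWalk σ l → g ≤ l.length

/-! ## Part B: random matching of large girth (change of measure) -/

open Classical in
/-- graph of a permutation as a finset of pairs -/
noncomputable def gr (σ : Equiv.Perm (Cel p n)) : Finset (Cel p n × Cel p n) :=
  univ.image (fun c => (c, σ c))

/-- PART B. `D` bounds the number of ports of a block, `R = (2*D+2)^(g+3)`. -/
def StmtB : Prop :=
  ∀ (p : Pat) (n g D s : ℕ), (∀ b : Blk p n, (univ.filter (fun q : Port p n => blk q.1 = b)).card ≤ D) →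
    (2 * D + 2) ^ (g + 3) + s < Fintype.card (Cel p n) →
    ∀ Q : Finset (Cel p n × Cel p n) → ℝ, (∀ S, 0 ≤ Q S) → (∑ S, Q S ≤ 1) →
      (∀ S, Q S ≠ 0 → S.card ≤ s) →
      ∃ σ : Equiv.Perm (Cel p n), Girth σ g ∧
        ∀ S ⊆ gr σ, Q S * ((Fintype.card (Cel p n) : ℝ) - (2 * D + 2) ^ (g + 3) - s) ^ S.card ≤ 1

/-! ## Partial injections and cycles -/

/-- `k`-th iterate of a partial injection -/
def pit {S : Type} (f : S ≃. S) : ℕ → S → Option S
  | 0, s => some s
  | k + 1, s => (f s).bind (pit f k)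

/-- `s` lies on a cycle of `f` -/
def Per {S : Type} (f : S ≃. S) (s : S) : Prop := ∃ k, 0 < k ∧ pit f k s = some s

open Classical in
/-- forward orbit -/
noncomputable def orb {S : Type} [Fintype S] (f : S ≃. S) (s : S) : Finset S :=
  univ.filter (fun t => ∃ k, pit f k s = some t)

open Classical in
/-- number of cycles -/
noncomputable def cyc {S : Type} [Fintype S] (f : S ≃. S) : ℕ :=
  ((univ.filter (Per f)).image (orb f)).card

open Classical in
noncomputable def domc {S : Type} [Fintype S] (f : S ≃. S) : ℕ :=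
  (univ.filter (fun s => (f s).isSome)).card

/-! ## Gluing data: squares with partial injections `X`, `Y`

`ε s` is the port of the start corner of the (oriented) square `s`, `mt σ (ε s)` the port of its end
corner.  `Y s = some s'`: the end y-side of `s` is glued to the start y-side of `s'`.
`X s = some s'`: the start x-side of `s` is glued to the end x-side of `s'`. -/

structure Glue (σ : Equiv.Perm (Cel p n)) where
  S : Type
  [fS : Fintype S]
  [dS : DecidableEq S]
  ε : S → Port p n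
  X : S ≃. S
  Y : S ≃. S

attribute [instance] Glue.fS Glue.dS

namespace Glue

variable {σ : Equiv.Perm (Cel p n)} (G : Glue σ)

/-- `Y ∘ X` (first `X`, then `Y`) -/
def XY : G.S ≃. G.S := G.X.trans G.Y

/-- sides are glued to sides with the same letter and there is no mirror pair -/
structure Red : Prop where
  y : ∀ s s', G.Y s = some s' → blk (mt σ (G.ε s)).1 = blk (G.ε s').1 ∧ G.ε s' ≠ mt σ (G.ε s)
  x : ∀ s s', G.X s = some s' → rc (G.ε s) = rc (mt σ (G.ε s')) ∧ G.ε s ≠ mt σ (G.ε s')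

/-- the label increment of one step `s ↦ X s = u ↦ Y u = v`: `ht (mt (ε u)) - ht (ε v)` -/
noncomputable def inc (s : G.S) : ℤ :=
  match G.X s with
  | none => 0
  | some u => match G.Y u with
    | none => 0
    | some v => ht (mt σ (G.ε u)).1 - ht (G.ε v).1

/-- all cycles of `XY` except at most one have label sum zero -/
def Lab : Prop := ∃ E : Finset G.S, (∀ s s', s ∈ E → s' ∈ E → orb G.XY s = orb G.XY s') ∧
  ∀ s, Per G.XY s → s ∉ E → ∑ t ∈ orb G.XY s, G.inc t = 0

/-- Euler inequality -/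
def Eul : Prop :=
  domc G.X + domc G.Y ≤ Fintype.card G.S + cyc G.X + cyc G.Y + cyc G.XY

end Glue

/-- the local isoperimetric inequality up to area `M`, with weight `Y` of a y-letter -/
def LocIso (σ : Equiv.Perm (Cel p n)) (M Y : ℕ) (e1 : ℝ) : Prop :=
  ∀ G : Glue σ, G.Red → G.Lab → G.Eul → Fintype.card G.S ≤ M →
    e1 * (Fintype.card G.S : ℝ) ≤
      ((Fintype.card G.S : ℝ) - domc G.X) + Y * ((Fintype.card G.S : ℝ) - domc G.Y)

/-- PARTS B + C + LA: existence of good matchings. -/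
def StmtLoc : Prop :=
  ∀ p : Pat, p.Good → ∃ c e1 : ℝ, 0 < c ∧ 0 < e1 ∧ ∀ K Y0 : ℕ, ∃ Y n : ℕ, Y0 ≤ Y ∧ Odd n ∧
    ∃ σ : Equiv.Perm (Cel p n), ∃ g : ℕ, c * Y ≤ g ∧ Girth σ g ∧ LocIso σ (K * Y) Y e1

/-! ## The group -/

inductive Let (p : Pat) (n : ℕ)
  | t : Let p n
  | x : p.I → Bool → Let p n
  | y : Blk p n → Let p n

/-- the word `t^h` as a list of signed letters -/
def tw (p : Pat) (n : ℕ) (h : ℤ) : List (Let p n × Bool) :=
  List.replicate h.natAbs (Let.t, decide (0 ≤ h))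

/-- inverse of a list word -/
def winv {A : Type} (l : List (A × Bool)) : List (A × Bool) := (l.map (fun a => (a.1, !a.2))).reverse

/-- half relator of a port: `x_{row,copy} t^{ht} y_{blk}` -/
noncomputable def half (q : Port p n) : List (Let p n × Bool) :=
  (Let.x (row q.1) q.2, true) :: (tw p n (ht q.1) ++ [(Let.y (blk q.1), true)])

/-- the relator of a port (oriented square, read from the o-vertex):
`half q * (half (mt σ q))⁻¹`.  The relator of `mt σ q` is the inverse of that of `q`. -/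
noncomputable def relw (σ : Equiv.Perm (Cel p n)) (q : Port p n) : List (Let p n × Bool) :=
  half q ++ winv (half (mt σ q))

/-- value of a list word in the free group -/
def val {A : Type} (l : List (A × Bool)) : FreeGroup A := FreeGroup.mk l

/-- the set of relators -/
def rels (σ : Equiv.Perm (Cel p n)) : Set (FreeGroup (Let p n)) := Set.range (fun q => val (relw σ q))

abbrev Gp (σ : Equiv.Perm (Cel p n)) : Type := PresentedGroup (rels σ)

/-- weight of a letter: `t` 0, `x` 1, `y` Y -/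
def wtl (Y : ℕ) : Let p n → ℕ
  | .t => 0
  | .x _ _ => 1
  | .y _ => Y

def wtw (Y : ℕ) (l : List (Let p n × Bool)) : ℕ := (l.map (fun a => wtl Y a.1)).sum

/-- chains: `ℤ[Gp]^{cells}`; the square of a port `(c,true)` is `+[g,c]`, of `(σ c,false)` is `-[g,c]`. -/
abbrev Chn (σ : Equiv.Perm (Cel p n)) : Type := (Gp σ × Cel p n) →₀ ℤ

noncomputable def pch (σ : Equiv.Perm (Cel p n)) (g : Gp σ) (q : Port p n) : Chn σ :=
  if q.2 then Finsupp.single (g, q.1) 1 else Finsupp.single (g, σ.symm q.1) (-1)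

/-- `Expr σ k u z`: the element `u` of the free group is a product of `k` conjugates of relators with
chain `z`. -/
inductive Expr (σ : Equiv.Perm (Cel p n)) : ℕ → FreeGroup (Let p n) → Chn σ → Prop
  | nil : Expr σ 0 1 0
  | cons (k : ℕ) (u : FreeGroup (Let p n)) (z : Chn σ) (v : FreeGroup (Let p n)) (q : Port p n) :
      Expr σ k u z →
      Expr σ (k + 1) (v * val (relw σ q) * v⁻¹ * u) (pch σ (PresentedGroup.mk (rels σ) v) q + z)

/-- PARTS D + F: asphericity and injectivity for short words. -/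
def StmtGlob : Prop :=
  ∀ p : Pat, p.Good → ∀ c e1 : ℝ, 0 < c → 0 < e1 → ∃ K Y0 : ℕ, ∀ Y n : ℕ, Y0 ≤ Y →
    ∀ (σ : Equiv.Perm (Cel p n)) (g : ℕ), c * Y ≤ g → Girth σ g → LocIso σ (K * Y) Y e1 →
      (∀ k z, Expr σ k 1 z → z = 0) ∧
      (∀ l : List (Let p n × Bool), (∀ a ∈ l, ∀ j, a.1 ≠ Let.y j) → wtw Y l ≤ 2 →
        PresentedGroup.mk (rels σ) (val l) = 1 → val l = 1)

/-- PART G -/
def StmtG : Prop :=
  ∀ (p : Pat), p.Good → ∀ n : ℕ, Odd n → ∀ (Y : ℕ) (σ : Equiv.Perm (Cel p n)),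
    (∀ k z, Expr σ k 1 z → z = 0) →
    (∀ l : List (Let p n × Bool), (∀ a ∈ l, ∀ j, a.1 ≠ Let.y j) → wtw Y l ≤ 2 →
        PresentedGroup.mk (rels σ) (val l) = 1 → val l = 1) →
    (∀ g : Gp σ, ∀ m : ℕ, 0 < m → g ^ m = 1 → g = 1) ∧
    ∃ a b : MonoidAlgebra (ZMod 2) (Gp σ), a ≠ 0 ∧ b ≠ 0 ∧ a * b = 0

theorem final (hA : StmtA) (hL : StmtLoc) (hGl : StmtGlob) (hG : StmtG) :
    ∃ (G : Type) (_ : Group G), (∀ g : G, ∀ m : ℕ, 0 < m → g ^ m = 1 → g = 1) ∧
      ∃ a b : MonoidAlgebra (ZMod 2) G, a ≠ 0 ∧ b ≠ 0 ∧ a * b = 0 := by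
  obtain ⟨p, hp⟩ := hA
  obtain ⟨c, e1, hc, he1, h⟩ := hL p hp
  obtain ⟨K, Y0, h2⟩ := hGl p hp c e1 hc he1
  obtain ⟨Y, n, hY, hn, σ, g, hg, hgi, hloc⟩ := h K Y0
  obtain ⟨h3, h4⟩ := h2 Y n hY σ g hg hgi hloc
  exact ⟨Gp σ, inferInstance, hG p hp n hn Y σ h3 h4⟩

/-- puts the equation lemmas of `wtl` into this module -/
theorem wtl_t_here (Y : ℕ) : wtl Y (Let.t : Let p n) = 0 := by simp [wtl]

theorem wtw_tw_zero (Y : ℕ) (m : ℤ) : wtw Y (tw p n m) = 0 := by
  simp [wtw, tw, wtl]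

theorem wtw_relw_here (σ : Equiv.Perm (Cel p n)) (Y : ℕ) (q : Port p n) :
    wtw Y (relw σ q) = 2 + 2 * Y := by
  unfold relw half winv tw wtw
  simp [wtl]
  ring

/-- puts the equation lemmas of `pit` into this module -/
theorem pit_zero_here {T : Type} (f : T ≃. T) (s : T) : pit f 0 s = some s := by simp [pit]

end Vale.Agent.P201.Z
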