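import Vale.Agent.P201.Z.Defs

/-! P201, block B4 + B5 (counting part of StmtB).  helper585. -/

namespace Vale.Agent.P201.Z

open Finset

section Count

variable {C : Type} [Fintype C] [DecidableEq C]

/-- B4: if every `σ ∈ GG` has, for each `a`, at most `R` bad `c` (`σ * swap a c ∉ GG`), then
a prescribed set of `|S| ≤ s` pairs is contained in the graph of few `σ ∈ GG`. -/
theorem count_contain (GG : Finset (Equiv.Perm C)) (R s : ℕ)
    (hR : R + s < Fintype.card C)
    (H : ∀ σ ∈ GG, ∀ a : C, (univ.filter (fun c => σ * Equiv.swap a c ∉ GG)).card ≤ R)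
    (S : Finset (C × C)) (hS : S.card ≤ s) :
    (GG.filter (fun σ => ∀ x ∈ S, σ x.1 = x.2)).card * (Fintype.card C - R - s) ^ S.card
      ≤ GG.card := by
  classical
  induction S using Finset.induction_on with
  | empty => simp
  | insert ab S' hab ih =>
    obtain ⟨a, b⟩ := ab
    have hS' : S'.card ≤ s := by
      rw [card_insert_of_notMem hab] at hS; omega
    have ih' := ih hS'
    rw [card_insert_of_notMem hab] at hS ⊢
    set A := GG.filter (fun σ => ∀ x ∈ insert (a, b) S', σ x.1 = x.2) with hA
    set B := GG.filter (fun σ => ∀ x ∈ S', σ x.1 = x.2) with hB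
    set K := Fintype.card C - R - s with hK
    -- the good `c`s
    let good : Equiv.Perm C → Finset C := fun σ =>
      univ.filter (fun c => σ * Equiv.swap a c ∈ GG ∧ c ∉ (insert (a, b) S').image Prod.fst)
    have hgood : ∀ σ ∈ A, K ≤ (good σ).card := by
      intro σ hσ
      have hσG : σ ∈ GG := (mem_filter.1 hσ).1
      have h1 := H σ hσG a
      have h2 : (univ : Finset C) ⊆ good σ ∪ (univ.filter (fun c => σ * Equiv.swap a c ∉ GG) ∪
          (insert (a, b) S').image Prod.fst) := by
        intro c _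
        by_cases h3 : σ * Equiv.swap a c ∈ GG
        · by_cases h4 : c ∈ (insert (a, b) S').image Prod.fst
          · exact mem_union_right _ (mem_union_right _ h4)
          · exact mem_union_left _ (mem_filter.2 ⟨mem_univ _, h3, h4⟩)
        · exact mem_union_right _ (mem_union_left _ (mem_filter.2 ⟨mem_univ _, h3⟩))
      have h5 := card_le_card h2
      have h6 := card_union_le (good σ) (univ.filter (fun c => σ * Equiv.swap a c ∉ GG) ∪
          (insert (a, b) S').image Prod.fst)
      have h7 := card_union_le (univ.filter (fun c => σ * Equiv.swap a c ∉ GG))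
          ((insert (a, b) S').image Prod.fst)
      have h8 : ((insert (a, b) S').image Prod.fst).card ≤ s := by
        refine card_image_le.trans ?_
        rw [card_insert_of_notMem hab]; exact hS
      rw [card_univ] at h5
      omega
    -- injection
    have hinj : (A.sigma good).card ≤ B.card := by
      refine card_le_card_of_injOn (fun x => x.1 * Equiv.swap a x.2) ?_ ?_
      · rintro ⟨σ, c⟩ hx
        have hx' : σ ∈ A ∧ c ∈ good σ := by simpa using hx
        obtain ⟨h1, h2⟩ := hx'
        have h2' := mem_filter.1 h2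
        obtain ⟨_, h3, h4⟩ := h2'
        have h1' := mem_filter.1 h1
        have hgoal : σ * Equiv.swap a c ∈ B := by
          refine mem_filter.2 ⟨h3, ?_⟩
          intro x hx
          have hxa : x.1 ≠ a := by
            intro hxa
            have e1 := h1'.2 x (mem_insert_of_mem hx)
            have e2 := h1'.2 (a, b) (mem_insert_self _ _)
            have : x = (a, b) := by
              refine Prod.ext hxa ?_
              rw [← e1, hxa]; exact e2
            exact hab (this ▸ hx)
          have hxc : x.1 ≠ c := by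
            intro hxc
            exact h4 (mem_image.2 ⟨x, mem_insert_of_mem hx, hxc⟩)
          simp only [Equiv.Perm.coe_mul, Function.comp_apply]
          rw [Equiv.swap_apply_of_ne_of_ne hxa hxc]
          exact h1'.2 x (mem_insert_of_mem hx)
        simpa using hgoal
      · rintro ⟨σ, c⟩ hx ⟨τ, d⟩ hy hxy
        have hx' : σ ∈ A ∧ c ∈ good σ := by simpa using hx
        have hy' : τ ∈ A ∧ d ∈ good τ := by simpa using hy
        obtain ⟨h1, h2⟩ := hx'
        obtain ⟨h1', h2'⟩ := hy'
        have e1 : σ a = b := (mem_filter.1 h1).2 (a, b) (mem_insert_self _ _)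
        have e2 : τ a = b := (mem_filter.1 h1').2 (a, b) (mem_insert_self _ _)
        have hxy' : σ * Equiv.swap a c = τ * Equiv.swap a d := hxy
        have f1 : (σ * Equiv.swap a c) c = b := by
          simp [Equiv.swap_apply_right, e1]
        have f2 : (τ * Equiv.swap a d) d = b := by
          simp [Equiv.swap_apply_right, e2]
        have hcd : c = d := by
          apply (τ * Equiv.swap a d).injective
          rw [f2, ← hxy', f1]
        subst hcd
        have : σ = τ := by
          have := congrArg (fun π => π * Equiv.swap a c) hxy'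
          simpa [mul_assoc] using this
        subst this
        rfl
    have hsum : A.card * K ≤ (A.sigma good).card := by
      rw [card_sigma]
      calc A.card * K = ∑ _σ ∈ A, K := by rw [sum_const, smul_eq_mul]
        _ ≤ ∑ σ ∈ A, (good σ).card := sum_le_sum hgood
    calc A.card * K ^ (S'.card + 1) = (A.card * K) * K ^ S'.card := by ring
      _ ≤ B.card * K ^ S'.card := Nat.mul_le_mul_right _ (hsum.trans hinj)
      _ ≤ GG.card := ih'

/-- B5: averaging. -/
theorem exists_good_perm (GG : Finset (Equiv.Perm C)) (hne : GG.Nonempty) (R s : ℕ)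
    (hR : R + s < Fintype.card C)
    (H : ∀ σ ∈ GG, ∀ a : C, (univ.filter (fun c => σ * Equiv.swap a c ∉ GG)).card ≤ R)
    (Q : Finset (C × C) → ℝ) (hQ0 : ∀ S, 0 ≤ Q S) (hQ1 : ∑ S, Q S ≤ 1)
    (hQs : ∀ S, Q S ≠ 0 → S.card ≤ s) :
    ∃ σ ∈ GG, ∀ S : Finset (C × C), (∀ x ∈ S, σ x.1 = x.2) →
      Q S * ((Fintype.card C : ℝ) - R - s) ^ S.card ≤ 1 := by
  classical
  set Kr : ℝ := (Fintype.card C : ℝ) - R - s with hKr
  have hKrN : Kr = ((Fintype.card C - R - s : ℕ) : ℝ) := by
    rw [hKr, Nat.sub_sub, Nat.cast_sub hR.le]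
    push_cast
    ring
  have hK0 : 0 ≤ Kr := by rw [hKrN]; positivity
  -- each S
  have h1 : ∀ S : Finset (C × C),
      ((GG.filter (fun σ => ∀ x ∈ S, σ x.1 = x.2)).card : ℝ) * (Q S * Kr ^ S.card)
        ≤ Q S * GG.card := by
    intro S
    by_cases hS : Q S = 0
    · simp [hS]
    · have h2 := count_contain GG R s hR H S (hQs S hS)
      have h3 : ((GG.filter (fun σ => ∀ x ∈ S, σ x.1 = x.2)).card : ℝ) * Kr ^ S.card
          ≤ GG.card := by
        rw [hKrN]; exact_mod_cast h2
      calc ((GG.filter (fun σ => ∀ x ∈ S, σ x.1 = x.2)).card : ℝ) * (Q S * Kr ^ S.card)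
          = Q S * (((GG.filter (fun σ => ∀ x ∈ S, σ x.1 = x.2)).card : ℝ) * Kr ^ S.card) := by
            ring
        _ ≤ Q S * GG.card := mul_le_mul_of_nonneg_left h3 (hQ0 S)
  have h4 : ∑ σ ∈ GG, ∑ S ∈ univ.filter (fun S : Finset (C × C) => ∀ x ∈ S, σ x.1 = x.2),
      Q S * Kr ^ S.card ≤ ∑ _σ ∈ GG, (1 : ℝ) := by
    have h5 : ∑ σ ∈ GG, ∑ S ∈ univ.filter (fun S : Finset (C × C) => ∀ x ∈ S, σ x.1 = x.2),
        Q S * Kr ^ S.card
        = ∑ S : Finset (C × C), ((GG.filter (fun σ => ∀ x ∈ S, σ x.1 = x.2)).card : ℝ) *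
            (Q S * Kr ^ S.card) := by
      simp_rw [sum_filter]
      rw [sum_comm]
      refine sum_congr rfl (fun S _ => ?_)
      rw [← sum_filter, sum_const, nsmul_eq_mul]
    rw [h5]
    calc ∑ S : Finset (C × C), ((GG.filter (fun σ => ∀ x ∈ S, σ x.1 = x.2)).card : ℝ) *
            (Q S * Kr ^ S.card) ≤ ∑ S : Finset (C × C), Q S * GG.card :=
          sum_le_sum (fun S _ => h1 S)
      _ = (∑ S : Finset (C × C), Q S) * GG.card := by rw [sum_mul]
      _ ≤ 1 * GG.card := mul_le_mul_of_nonneg_right hQ1 (by positivity)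
      _ = ∑ _σ ∈ GG, (1 : ℝ) := by simp
  obtain ⟨σ, hσ, h6⟩ := exists_le_of_sum_le hne h4
  refine ⟨σ, hσ, fun S hS => ?_⟩
  refine le_trans ?_ h6
  exact single_le_sum (f := fun S : Finset (C × C) => Q S * Kr ^ S.card)
    (fun S _ => mul_nonneg (hQ0 S) (pow_nonneg hK0 _))
    (mem_filter.2 ⟨mem_univ _, hS⟩)

end Count

end Vale.Agent.P201.Z
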