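import Vale.Agent.P201.Z.Defs

/-! P201, block B: interface for the switching lemma (StmtB).  helper585.

* `BlkB1` (helper585): switching.
* `BlkB2` (helper147): few near cells.
* `BlkB3` (helper743): existence of a matching of large girth, from `BlkB1` and `BlkB2`.
-/

namespace Vale.Agent.P201.Z

open Finset

variable {p : Pat} {n : ℕ}

/-- there is a walk (not necessarily reduced) with exactly `k` edges from block `u` to block `v` -/
def WkS (σ : Equiv.Perm (Cel p n)) : ℕ → Blk p n → Blk p n → Prop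
  | 0, u, v => u = v
  | k + 1, u, v => ∃ q : Port p n, blk q.1 = u ∧ WkS σ k (blk (mt σ q).1) v

/-- joined by a walk with fewer than `g` edges -/
def NearS (σ : Equiv.Perm (Cel p n)) (g : ℕ) (u v : Blk p n) : Prop := ∃ k < g, WkS σ k u v

/-- the edges `a — σ a` and `c — σ c` have distance at least `g` -/
def FarS (σ : Equiv.Perm (Cel p n)) (g : ℕ) (a c : Cel p n) : Prop :=
  ∀ u ∈ [blk a, blk (σ a)], ∀ v ∈ [blk c, blk (σ c)], ¬ NearS σ g u v

/-- ports of the two old edges -/
def OldPort (σ : Equiv.Perm (Cel p n)) (a c : Cel p n) (q : Port p n) : Prop :=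
  q = (a, true) ∨ q = (σ a, false) ∨ q = (c, true) ∨ q = (σ c, false)

/-- B1: after the switch, closed reduced walks of length `≤ g` are old and avoid the four ports. -/
def BlkB1 : Prop :=
  ∀ (p : Pat) (n : ℕ) (σ : Equiv.Perm (Cel p n)) (g : ℕ) (a c : Cel p n), 0 < g →
    Girth σ g → FarS σ g a c → ∀ l : List (Port p n), l ≠ [] →
      IsCWalk (σ * Equiv.swap a c) l → l.length ≤ g →
        IsCWalk σ l ∧ ∀ q ∈ l, ¬ OldPort σ a c q

open Classical in
/-- B2: few near cells. -/
def BlkB2 : Prop :=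
  ∀ (p : Pat) (n g D : ℕ),
    (∀ b : Blk p n, (univ.filter (fun q : Port p n => blk q.1 = b)).card ≤ D) →
    ∀ (σ : Equiv.Perm (Cel p n)) (a : Cel p n),
      (univ.filter (fun c : Cel p n => ¬ FarS σ g a c)).card ≤ (2 * D + 2) ^ (g + 3)

/-- B3: existence of a matching of girth `≥ g`. -/
def BlkB3 : Prop :=
  ∀ (p : Pat) (n g D : ℕ),
    (∀ b : Blk p n, (univ.filter (fun q : Port p n => blk q.1 = b)).card ≤ D) →
    (2 * D + 2) ^ (g + 3) < Fintype.card (Cel p n) →
    ∃ σ : Equiv.Perm (Cel p n), Girth σ g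

/-- consequence of B1: the switched matching has girth `≥ g`. -/
theorem girth_switch (h1 : BlkB1) {σ : Equiv.Perm (Cel p n)} {g : ℕ} {a c : Cel p n}
    (hg : Girth σ g) (hf : FarS σ g a c) : Girth (σ * Equiv.swap a c) g := by
  intro l hl hw
  rcases Nat.eq_zero_or_pos g with h0 | h0
  · omega
  · by_contra hlt
    have := (h1 p n σ g a c h0 hg hf l hl hw (by omega)).1
    have := hg l hl this
    omega

end Vale.Agent.P201.Z
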