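import Vale.Agent.P201.Z.B0

/-! P201, block B1: the switching lemma.  helper585. -/

namespace Vale.Agent.P201.Z

open Finset

section Abs

variable {P V : Type} (β : P → V) (m : P → P)

/-- one step of a reduced walk -/
def St (a b : P) : Prop := β (m a) = β b ∧ b ≠ m a

/-- walks -/
def Wk : ℕ → V → V → Prop
  | 0, u, v => u = v
  | k + 1, u, v => ∃ q : P, β q = u ∧ Wk k (β (m q)) v

theorem wk_snoc (k : ℕ) (u : V) (q : P) (h : Wk β m k u (β q)) : Wk β m (k + 1) u (β (m q)) := by
  induction k generalizing u with
  | zero => exact ⟨q, h.symm, rfl⟩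
  | succ k ih =>
    obtain ⟨q', h1, h2⟩ := h
    exact ⟨q', h1, ih _ h2⟩

theorem wk_symm (hm : ∀ q, m (m q) = q) (k : ℕ) (u v : V) (h : Wk β m k u v) :
    Wk β m k v u := by
  induction k generalizing u v with
  | zero => exact Eq.symm h
  | succ k ih =>
    obtain ⟨q, h1, h2⟩ := h
    have := wk_snoc β m k v (m q) (ih _ _ h2)
    rw [hm, h1] at this
    exact this

theorem wk_of_chain (s : List P) (u : V) (q : P) (h0 : ∀ y ∈ (s ++ [q]).head?, u = β y)
    (h : (s ++ [q]).IsChain (St β m)) : Wk β m s.length u (β q) := by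
  induction s generalizing u with
  | nil => exact h0 q (by simp)
  | cons y t ih =>
    have h1 : u = β y := h0 y (by simp)
    rw [List.cons_append, List.isChain_cons] at h
    exact ⟨y, h1.symm, ih _ (fun z hz => (h.1 z hz).1) h.2⟩

/-- closed reduced walks (as `a :: l`) have length at least `g` -/
def AG (g : ℕ) : Prop := ∀ a l, (a :: (l ++ [a])).IsChain (St β m) → g ≤ l.length + 1

/-- reduced walks with equal end blocks have length at least `g` -/
theorem girth_closed (hm : ∀ q, m (m q) = q) (hfix : ∀ q, m q ≠ q) {g : ℕ} (hg : AG β m g) :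
    ∀ N : ℕ, ∀ f : P, ∀ t : List P, t.length ≤ N → (f :: t).IsChain (St β m) →
      (∀ e ∈ (f :: t).getLast?, β (m e) = β f) → g ≤ t.length + 1 := by
  intro N
  induction N using Nat.strong_induction_on with
  | _ N ih =>
    intro f t ht hch hcl
    rcases List.eq_nil_or_concat t with h0 | ⟨t', e, h0⟩
    · subst h0
      have h1 : β (m f) = β f := hcl f (by simp)
      have := hg f [] (by
        rw [List.nil_append, List.isChain_pair]
        exact ⟨h1, fun h => hfix f h.symm⟩)
      simpa using this
    · rw [List.concat_eq_append] at h0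
      subst h0
      have h1 : β (m e) = β f := hcl e (by rw [← List.cons_append, List.getLast?_concat]; rfl)
      by_cases hfe : f = m e
      · -- strip
        have hef : e = m f := by rw [hfe, hm]
        cases t' with
        | nil =>
          exfalso
          rw [List.nil_append, List.isChain_pair] at hch
          exact hch.2 hef
        | cons h t'' =>
          rw [List.cons_append, List.isChain_cons_cons] at hch
          obtain ⟨hfh, hch2⟩ := hch
          rw [← List.cons_append, List.isChain_append] at hch2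
          obtain ⟨hch3, _, hlast⟩ := hch2
          have hN : t''.length < N := by
            simp only [List.length_cons, List.length_append, List.length_nil] at ht
            omega
          have hcl' : ∀ x ∈ (h :: t'').getLast?, β (m x) = β h := by
            intro x hx
            have h3 := (hlast x hx e (by simp)).1
            rw [h3, hef]
            exact hfh.1
          have := ih t''.length hN h t'' le_rfl hch3 hcl'
          simp only [List.length_cons, List.length_append, List.length_nil]
          omega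
      · have := hg f (t' ++ [e]) (by
          rw [← List.cons_append, List.isChain_append]
          refine ⟨hch, List.isChain_singleton _, ?_⟩
          intro x hx y hy
          have hxe : x = e := by
            rw [← List.cons_append, List.getLast?_append] at hx
            simpa using hx.symm
          have hyf : y = f := by simpa using hy.symm
          subst hxe hyf
          exact ⟨h1, hfe⟩)
        exact this

theorem chain_congr (m' : P → P) (s : List P) (q : P) (hs : ∀ x ∈ s, m' x = m x)
    (h : (s ++ [q]).IsChain (St β m')) : (s ++ [q]).IsChain (St β m) := by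
  induction s with
  | nil => exact List.isChain_singleton _
  | cons x t ih =>
    rw [List.cons_append, List.isChain_cons] at h ⊢
    refine ⟨fun y hy => ?_, ih (fun z hz => hs z (List.mem_cons_of_mem _ hz)) h.2⟩
    have h1 := h.1 y hy
    unfold St at h1 ⊢
    rw [hs x (List.mem_cons_self)] at h1
    exact h1

theorem first_split (N : P → Prop) (l : List P) (h : ∃ x ∈ l, N x) :
    ∃ s q r, l = s ++ q :: r ∧ (∀ x ∈ s, ¬ N x) ∧ N q := by
  induction l with
  | nil => obtain ⟨x, hx, _⟩ := h; simp at hx
  | cons y t ih =>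
    by_cases hy : N y
    · exact ⟨[], y, t, rfl, by simp, hy⟩
    · obtain ⟨x, hx, hN⟩ := h
      have hxt : x ∈ t := by
        rcases List.mem_cons.1 hx with h1 | h1
        · exact absurd (h1 ▸ hN) hy
        · exact h1
      obtain ⟨s, q, r, h1, h2, h3⟩ := ih ⟨x, hxt, hN⟩
      refine ⟨y :: s, q, r, by rw [h1]; rfl, ?_, h3⟩
      intro z hz
      rcases List.mem_cons.1 hz with h4 | h4
      · rw [h4]; exact hy
      · exact h2 z h4

theorem switch_core (hm : ∀ q, m (m q) = q) (hfix : ∀ q, m q ≠ q) (m' : P → P) (a c : P)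
    (e1 : m' a = m c) (e2 : m' (m c) = a) (e3 : m' c = m a) (e4 : m' (m a) = c)
    (e5 : ∀ q, q ≠ a → q ≠ m a → q ≠ c → q ≠ m c → m' q = m q)
    {g : ℕ} (hg : AG β m g)
    (hfar : ∀ u, (u = a ∨ u = m a) → ∀ v, (v = c ∨ v = m c) → ∀ k < g, ¬ Wk β m k (β u) (β v))
    (q : P) (l : List P) (hq : (q = a ∨ q = m a) ∨ (q = c ∨ q = m c))
    (hch : (q :: (l ++ [q])).IsChain (St β m')) (hl : l.length + 1 ≤ g) : False := by
  obtain ⟨s, q2, r, hs1, hs2, hs3⟩ := first_split
    (fun x => (x = a ∨ x = m a) ∨ (x = c ∨ x = m c)) (l ++ [q]) ⟨q, by simp, hq⟩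
  have hlen : l.length + 1 = s.length + (r.length + 1) := by
    have := congrArg List.length hs1
    simpa using this
  rw [hs1, List.isChain_cons_split, List.isChain_cons] at hch
  obtain ⟨⟨hhead, hch1⟩, _⟩ := hch
  have hch2 : (s ++ [q2]).IsChain (St β m) := by
    refine chain_congr β m m' s q2 (fun x hx => ?_) hch1
    have := hs2 x hx
    push Not at this
    exact e5 x this.1.1 this.1.2 this.2.1 this.2.2
  set u := m' q with hu
  have hW : Wk β m s.length (β u) (β q2) :=
    wk_of_chain β m s (β u) q2 (fun y hy => (hhead y hy).1) hch2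
  have hsg : s.length < g := by omega
  have hdisj : ∀ x, (x = a ∨ x = m a) → (x = c ∨ x = m c) → False := fun x h1 h2 =>
    hfar x h1 x h2 0 (by omega) rfl
  have hside : ((q = a ∨ q = m a) ∧ (u = c ∨ u = m c)) ∨
      ((q = c ∨ q = m c) ∧ (u = a ∨ u = m a)) := by
    rcases hq with (h | h) | (h | h)
    · left; exact ⟨Or.inl h, Or.inr (by rw [hu, h, e1])⟩
    · left; exact ⟨Or.inr h, Or.inl (by rw [hu, h, e4])⟩
    · right; exact ⟨Or.inl h, Or.inr (by rw [hu, h, e3])⟩
    · right; exact ⟨Or.inr h, Or.inl (by rw [hu, h, e2])⟩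
  have hsame : ((u = a ∨ u = m a) ∧ (q2 = a ∨ q2 = m a)) ∨
      ((u = c ∨ u = m c) ∧ (q2 = c ∨ q2 = m c)) := by
    rcases hside with ⟨_, h2⟩ | ⟨_, h2⟩
    · rcases hs3 with h3 | h3
      · exact (hfar q2 h3 u h2 s.length hsg (wk_symm β m hm _ _ _ hW)).elim
      · exact Or.inr ⟨h2, h3⟩
    · rcases hs3 with h3 | h3
      · exact Or.inl ⟨h2, h3⟩
      · exact (hfar u h2 q2 h3 s.length hsg hW).elim
  have hr : r ≠ [] := by
    intro hr0
    subst hr0
    have hqq : q2 = q := by
      have h1 := congrArg List.getLast? hs1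
      simpa using h1.symm
    subst hqq
    rcases hside with ⟨h1, h2⟩ | ⟨h1, h2⟩ <;> rcases hsame with ⟨h3, h4⟩ | ⟨h3, h4⟩
    · exact hdisj _ h3 h2
    · exact hdisj _ h1 h4
    · exact hdisj _ h4 h1
    · exact hdisj _ h2 h3
  have hr1 : 1 ≤ r.length := List.length_pos_iff.2 hr
  have hq2 : q2 = u ∨ q2 = m u := by
    rcases hsame with ⟨h3 | h3, h4 | h4⟩ | ⟨h3 | h3, h4 | h4⟩ <;> rw [h3, h4] <;> simp [hm]
  rcases hq2 with hq2 | hq2
  · cases s with
    | nil =>
      exact (hhead q2 (by simp)).2 hq2
    | cons f t =>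
      have hch3 : (f :: t).IsChain (St β m) := (List.isChain_append.1 hch2).1
      have hlast := (List.isChain_append.1 hch2).2.2
      have := girth_closed β m hm hfix hg t.length f t le_rfl hch3 (by
        intro e he
        rw [(hlast e he q2 (by simp)).1, hq2]
        exact (hhead f (by simp)).1)
      simp only [List.length_cons] at hsg
      omega
  · have := hg q2 s (by
      rw [List.isChain_cons]
      refine ⟨fun y hy => ?_, hch2⟩
      have h1 := hhead y hy
      refine ⟨?_, ?_⟩
      · rw [hq2, hm]; exact h1.1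
      · rw [hq2, hm]; exact h1.2)
    omega

end Abs

section Conc

variable {p : Pat} {n : ℕ}

theorem mt_mt (σ : Equiv.Perm (Cel p n)) (q : Port p n) : mt σ (mt σ q) = q := by
  obtain ⟨x, b⟩ := q
  cases b <;> simp [mt]

theorem mt_ne (σ : Equiv.Perm (Cel p n)) (q : Port p n) : mt σ q ≠ q := by
  obtain ⟨x, b⟩ := q
  cases b <;> simp [mt]

/-- block of a port -/
noncomputable def bq (q : Port p n) : Blk p n := blk q.1

theorem wk_iff (σ : Equiv.Perm (Cel p n)) (k : ℕ) (u v : Blk p n) :
    Wk bq (mt σ) k u v ↔ WkS σ k u v := by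
  induction k generalizing u with
  | zero => exact Iff.rfl
  | succ k ih =>
    unfold Wk WkS
    exact exists_congr (fun q => and_congr Iff.rfl (ih _))

theorem cwalk_cons (σ : Equiv.Perm (Cel p n)) (a : Port p n) (l : List (Port p n)) :
    IsCWalk σ (a :: l) ↔ (a :: (l ++ [a])).IsChain (St bq (mt σ)) := by
  unfold IsCWalk IsWalk
  rw [← List.cons_append, List.isChain_append]
  constructor
  · rintro ⟨h1, h2⟩
    refine ⟨h1, List.isChain_singleton _, fun x hx y hy => ?_⟩
    exact h2 x hx y (by simpa using hy)
  · rintro ⟨h1, _, h2⟩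
    refine ⟨h1, fun x hx y hy => ?_⟩
    exact h2 x hx y (by simpa using hy)

theorem ag_of_girth {σ : Equiv.Perm (Cel p n)} {g : ℕ} (hg : Girth σ g) : AG bq (mt σ) g := by
  intro a l h
  have := hg (a :: l) (by simp) ((cwalk_cons σ a l).2 h)
  simpa using this

/-- rotation of closed walks -/
theorem cwalk_rotate (σ : Equiv.Perm (Cel p n)) (l : List (Port p n)) (h : IsCWalk σ l)
    (q : Port p n) (hq : q ∈ l) : ∃ l', (q :: l').length = l.length ∧ IsCWalk σ (q :: l') := by
  obtain ⟨l1, l2, rfl⟩ := List.append_of_mem hq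
  cases l1 with
  | nil => exact ⟨l2, rfl, h⟩
  | cons a l1 =>
    refine ⟨l2 ++ a :: l1, by simp; omega, ?_⟩
    rw [List.cons_append, cwalk_cons] at h
    rw [cwalk_cons]
    rw [List.append_assoc, List.cons_append, List.isChain_cons_split] at h
    rw [List.append_assoc, List.cons_append, List.isChain_cons_split]
    exact ⟨h.2, h.1⟩

theorem blkB1 : BlkB1 := by
  intro p n σ g a c h0 hg hfar l hl hw hlen
  have hnew : ∀ q : Port p n, ¬ OldPort σ a c q → mt (σ * Equiv.swap a c) q = mt σ q := by
    rintro ⟨x, b⟩ hq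
    unfold OldPort at hq
    push Not at hq
    obtain ⟨h1, h2, h3, h4⟩ := hq
    cases b
    · have h2' : σ.symm x ≠ a := by
        rintro h; exact h2 (by rw [← h]; simp)
      have h4' : σ.symm x ≠ c := by
        rintro h; exact h4 (by rw [← h]; simp)
      simp only [mt, Bool.false_eq_true, if_false]
      refine Prod.ext ?_ rfl
      show (σ * Equiv.swap a c).symm x = σ.symm x
      rw [Equiv.symm_apply_eq]
      simp [Equiv.swap_apply_of_ne_of_ne h2' h4']
    · have h1' : x ≠ a := by rintro rfl; exact h1 rfl
      have h3' : x ≠ c := by rintro rfl; exact h3 rfl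
      simp only [mt, if_true]
      refine Prod.ext ?_ rfl
      simp [Equiv.swap_apply_of_ne_of_ne h1' h3']
  have hno : ∀ q ∈ l, ¬ OldPort σ a c q := by
    intro q hq hold
    obtain ⟨l', hl', hw'⟩ := cwalk_rotate _ l hw q hq
    rw [cwalk_cons] at hw'
    refine switch_core bq (mt σ) (mt_mt σ) (mt_ne σ) (mt (σ * Equiv.swap a c)) (a, true)
      (c, true) ?_ ?_ ?_ ?_ ?_ (ag_of_girth hg) ?_ q l' ?_ hw' (by
        simp only [List.length_cons] at hl'; omega)
    · simp [mt]
    · simp only [mt, if_true, Bool.false_eq_true, if_false]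
      refine Prod.ext ?_ rfl
      show (σ * Equiv.swap a c).symm (σ c) = a
      rw [Equiv.symm_apply_eq]; simp
    · simp [mt]
    · simp only [mt, if_true, Bool.false_eq_true, if_false]
      refine Prod.ext ?_ rfl
      show (σ * Equiv.swap a c).symm (σ a) = c
      rw [Equiv.symm_apply_eq]; simp
    · intro q h1 h2 h3 h4
      refine hnew q ?_
      unfold OldPort
      simp only [mt, if_true] at h2 h4
      push Not
      exact ⟨h1, h2, h3, h4⟩
    · intro u hu v hv k hk hW
      rw [wk_iff] at hW
      simp only [mt, if_true] at hu hv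
      refine hfar (bq u) ?_ (bq v) ?_ ⟨k, hk, hW⟩
      · rcases hu with rfl | rfl <;> simp [bq]
      · rcases hv with rfl | rfl <;> simp [bq]
    · simp only [mt, if_true]
      rcases hold with h | h | h | h
      · exact Or.inl (Or.inl h)
      · exact Or.inl (Or.inr h)
      · exact Or.inr (Or.inl h)
      · exact Or.inr (Or.inr h)
  refine ⟨?_, hno⟩
  cases l with
  | nil => exact absurd rfl hl
  | cons x t =>
    rw [cwalk_cons] at hw ⊢
    rw [← List.cons_append] at hw ⊢
    exact chain_congr bq (mt σ) (mt (σ * Equiv.swap a c)) (x :: t) x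
      (fun y hy => hnew y (hno y hy)) hw

end Conc

end Vale.Agent.P201.Z
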