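import Vale.Agent.P201.Z.B0

/-! P201, block B2: few near cells (helper147). -/

namespace Vale.Agent.P201.Z

open Finset

variable {p : Pat} {n : ℕ}

open Classical in
/-- number of blocks joined to `u` by a walk with exactly `k` edges -/
theorem b2_card_wk (σ : Equiv.Perm (Cel p n)) (D : ℕ)
    (hD : ∀ b : Blk p n, (univ.filter (fun q : Port p n => blk q.1 = b)).card ≤ D) :
    ∀ (k : ℕ) (u : Blk p n), (univ.filter (fun v : Blk p n => WkS σ k u v)).card ≤ D ^ k := by
  intro k
  induction k with
  | zero =>
    intro u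
    rw [pow_zero]
    have : (univ.filter (fun v : Blk p n => WkS σ 0 u v)) ⊆ {u} := by
      intro v hv
      rw [mem_filter] at hv
      rw [mem_singleton]
      exact hv.2.symm
    exact (card_le_card this).trans (by simp)
  | succ k ih =>
    intro u
    have hsub : (univ.filter (fun v : Blk p n => WkS σ (k + 1) u v)) ⊆
        (univ.filter (fun q : Port p n => blk q.1 = u)).biUnion
          (fun q => univ.filter (fun v : Blk p n => WkS σ k (blk (mt σ q).1) v)) := by
      intro v hv
      rw [mem_filter] at hv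
      obtain ⟨q, hq, hw⟩ := hv.2
      rw [mem_biUnion]
      exact ⟨q, by simp [hq], by simp [hw]⟩
    refine (card_le_card hsub).trans ?_
    refine card_biUnion_le.trans ?_
    refine (sum_le_sum (fun q _ => ih (blk (mt σ q).1))).trans ?_
    rw [sum_const, smul_eq_mul, pow_succ, mul_comm]
    exact Nat.mul_le_mul_left _ (hD u)

open Classical in
/-- number of near blocks -/
theorem b2_card_near (σ : Equiv.Perm (Cel p n)) (D : ℕ)
    (hD : ∀ b : Blk p n, (univ.filter (fun q : Port p n => blk q.1 = b)).card ≤ D)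
    (g : ℕ) (u : Blk p n) :
    (univ.filter (fun v : Blk p n => NearS σ g u v)).card ≤ (D + 1) ^ g := by
  have hsub : (univ.filter (fun v : Blk p n => NearS σ g u v)) ⊆
      (range g).biUnion (fun k => univ.filter (fun v : Blk p n => WkS σ k u v)) := by
    intro v hv
    rw [mem_filter] at hv
    obtain ⟨k, hk, hw⟩ := hv.2
    rw [mem_biUnion]
    exact ⟨k, by simpa using hk, by simp [hw]⟩
  refine (card_le_card hsub).trans ?_
  refine card_biUnion_le.trans ?_
  refine (sum_le_sum (fun k _ => b2_card_wk σ D hD k u)).trans ?_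
  clear hsub
  induction g with
  | zero => simp
  | succ g ih =>
    rw [sum_range_succ]
    have h1 : D ^ g ≤ (D + 1) ^ g := Nat.pow_le_pow_left (Nat.le_succ D) g
    have h2 : D ^ g ≤ D * (D + 1) ^ g + 0 ∨ D = 0 := by
      rcases Nat.eq_zero_or_pos D with h | h
      · exact Or.inr h
      · left
        calc D ^ g ≤ (D + 1) ^ g := h1
          _ = 1 * (D + 1) ^ g := by ring
          _ ≤ D * (D + 1) ^ g := Nat.mul_le_mul_right _ h
          _ = _ := by ring
    rcases h2 with h2 | h2
    · calc ∑ x ∈ range g, D ^ x + D ^ g ≤ (D + 1) ^ g + (D * (D + 1) ^ g + 0) :=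
            Nat.add_le_add ih h2
        _ = (D + 1) ^ (g + 1) := by ring
    · subst h2
      rcases Nat.eq_zero_or_pos g with hg | hg
      · subst hg; simp
      · have : (0 : ℕ) ^ g = 0 := Nat.zero_pow hg
        rw [this]
        simpa using ih

open Classical in
/-- number of cells touching a near block -/
theorem b2_card_cell (σ : Equiv.Perm (Cel p n)) (D : ℕ)
    (hD : ∀ b : Blk p n, (univ.filter (fun q : Port p n => blk q.1 = b)).card ≤ D)
    (g : ℕ) (u : Blk p n) :
    (univ.filter (fun c : Cel p n => NearS σ g u (blk c) ∨ NearS σ g u (blk (σ c)))).card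
      ≤ 2 * ((D + 1) ^ g * D) := by
  set V := univ.filter (fun v : Blk p n => NearS σ g u v) with hV
  set Pt := V.biUnion (fun v => univ.filter (fun q : Port p n => blk q.1 = v)) with hPt
  have hPtc : Pt.card ≤ (D + 1) ^ g * D := by
    refine card_biUnion_le.trans ?_
    refine (sum_le_sum (fun v _ => hD v)).trans ?_
    rw [sum_const, smul_eq_mul]
    exact Nat.mul_le_mul_right _ (b2_card_near σ D hD g u)
  have hmem : ∀ q : Port p n, NearS σ g u (blk q.1) → q ∈ Pt := by
    intro q hq
    rw [hPt, mem_biUnion]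
    exact ⟨blk q.1, by simp [hV, hq], by simp⟩
  have hsub : (univ.filter (fun c : Cel p n => NearS σ g u (blk c) ∨ NearS σ g u (blk (σ c)))) ⊆
      Pt.image (fun q => q.1) ∪ Pt.image (fun q => σ.symm q.1) := by
    intro c hc
    rw [mem_filter] at hc
    rw [mem_union]
    rcases hc.2 with h | h
    · left
      rw [mem_image]
      exact ⟨(c, true), hmem (c, true) h, rfl⟩
    · right
      rw [mem_image]
      exact ⟨(σ c, false), hmem (σ c, false) h, by simp⟩
  refine (card_le_card hsub).trans ?_
  refine (card_union_le _ _).trans ?_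
  have h1 := (card_image_le (s := Pt) (f := fun q => q.1)).trans hPtc
  have h2 := (card_image_le (s := Pt) (f := fun q => σ.symm q.1)).trans hPtc
  omega

theorem blkB2 : BlkB2 := by
  classical
  intro p n g D hD σ a
  have hsub : (univ.filter (fun c : Cel p n => ¬ FarS σ g a c)) ⊆
      (univ.filter (fun c : Cel p n => NearS σ g (blk a) (blk c) ∨ NearS σ g (blk a) (blk (σ c)))) ∪
      (univ.filter (fun c : Cel p n =>
        NearS σ g (blk (σ a)) (blk c) ∨ NearS σ g (blk (σ a)) (blk (σ c)))) := by
    intro c hc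
    rw [mem_filter] at hc
    rw [mem_union, mem_filter, mem_filter]
    have h := hc.2
    unfold FarS at h
    push Not at h
    obtain ⟨u, hu, v, hv, hN⟩ := h
    simp only [List.mem_cons, List.not_mem_nil, or_false] at hu hv
    rcases hu with rfl | rfl <;> rcases hv with rfl | rfl
    · exact Or.inl ⟨mem_univ _, Or.inl hN⟩
    · exact Or.inl ⟨mem_univ _, Or.inr hN⟩
    · exact Or.inr ⟨mem_univ _, Or.inl hN⟩
    · exact Or.inr ⟨mem_univ _, Or.inr hN⟩
  have hcard := (card_le_card hsub).trans (card_union_le _ _)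
  have h1 := b2_card_cell σ D hD g (blk a)
  have h2 := b2_card_cell σ D hD g (blk (σ a))
  have h3 : (univ.filter (fun c : Cel p n => ¬ FarS σ g a c)).card ≤ 4 * ((D + 1) ^ g * D) := by
    omega
  have h4 : 4 * ((D + 1) ^ g * D) ≤ (2 * D + 2) ^ (g + 3) := by
    have e1 : (D + 1) ^ g ≤ (2 * D + 2) ^ g := Nat.pow_le_pow_left (by omega) g
    have e2 : 4 * D ≤ (2 * D + 2) ^ 3 := by
      have : (2 * D + 2) ^ 3 = 8 * D ^ 3 + 24 * D ^ 2 + 24 * D + 8 := by ring
      rw [this]
      omega
    calc 4 * ((D + 1) ^ g * D) = (D + 1) ^ g * (4 * D) := by ring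
      _ ≤ (2 * D + 2) ^ g * (2 * D + 2) ^ 3 := Nat.mul_le_mul e1 e2
      _ = (2 * D + 2) ^ (g + 3) := by ring
  refine le_trans ?_ h4
  convert h3

end Vale.Agent.P201.Z
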