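import Vale.Agent.P201.Z.B1
import Vale.Agent.P201.Z.B4

/-! P201, block B: assembly of StmtB from B1 (proved), B2, B3.  helper585. -/

namespace Vale.Agent.P201.Z

open Finset

theorem stmtB_of (h2 : BlkB2) (h3 : BlkB3) : StmtB := by
  intro p n g D s hD hN Q hQ0 hQ1 hQs
  have : DecidablePred (fun σ : Equiv.Perm (Cel p n) => Girth σ g) := Classical.decPred _
  set R : ℕ := (2 * D + 2) ^ (g + 3) with hR
  obtain ⟨σ0, hσ0⟩ := h3 p n g D hD (by omega)
  let GG : Finset (Equiv.Perm (Cel p n)) := univ.filter (fun σ => Girth σ g)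
  have hGG : ∀ σ, σ ∈ GG ↔ Girth σ g := fun σ => by simp [GG]
  obtain ⟨σ, hσ, hS⟩ := exists_good_perm GG ⟨σ0, (hGG σ0).2 hσ0⟩ R s hN (by
    intro σ hσ a
    have h := h2 p n g D hD σ a
    refine le_trans ?_ h
    apply card_le_card
    intro c hc
    simp only [Finset.mem_filter, Finset.mem_univ, true_and] at hc ⊢
    exact fun hf => hc ((hGG _).2 (girth_switch blkB1 ((hGG σ).1 hσ) hf))) Q hQ0 hQ1 hQs
  refine ⟨σ, (hGG σ).1 hσ, fun S hSg => ?_⟩
  have := hS S (fun x hx => by
    have := hSg hx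
    unfold gr at this
    rw [mem_image] at this
    obtain ⟨c, _, hc⟩ := this
    rw [← hc])
  rw [hR] at this
  push_cast at this
  exact this

end Vale.Agent.P201.Z
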