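import Vale.Agent.P201.Z.Defs

/-!
P201, parts D and F: planar complexes (captain helper201).  See `PROOF_DF.md`.
-/

namespace Vale.Agent.P201.Z

open Finset

/-- reversed dart -/
def rv {E : Type} (d : E × Bool) : E × Bool := (d.1, !d.2)

/-- A planar complex (sphere with an outer face `none`); each dart lies on exactly one face boundary,
exactly once. -/
structure PC (A : Type) where
  V : Type
  E : Type
  F : Type
  [fV : Fintype V]
  [fE : Fintype E]
  [fF : Fintype F]
  [dV : DecidableEq V]
  [dE : DecidableEq E]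
  [dF : DecidableEq F]
  org : E × Bool → V
  lab : E → A
  bd : Option F → List (E × Bool)
  chain : ∀ f, (bd f).IsChain (fun a b => org b = org (rv a))
  closed : ∀ f, ∀ a ∈ (bd f).getLast?, ∀ b ∈ (bd f).head?, org b = org (rv a)
  once : ∀ d, ∑ f, (bd f).count d = 1
  ne : ∀ f : F, bd (some f) ≠ []
  conn : ∀ u v : V, Relation.ReflTransGen (fun a b => ∃ d, org d = a ∧ org (rv d) = b) u v
  dconn : ∀ f g : Option F, Relation.ReflTransGen (fun a b => ∃ d, d ∈ bd a ∧ rv d ∈ bd b) f g
  euler : Fintype.card V + Fintype.card F = Fintype.card E + 1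

attribute [instance] PC.fV PC.fE PC.fF PC.dV PC.dE PC.dF

namespace PC

variable {A : Type} (K : PC A)

/-- word of a face boundary -/
def wd (f : Option K.F) : List (A × Bool) := (K.bd f).map (fun d => (K.lab d.1, d.2))

/-- letter of a dart in the free group -/
def lt (d : K.E × Bool) : FreeGroup A := FreeGroup.mk [(K.lab d.1, d.2)]

/-- face of a dart -/
noncomputable def fc (d : K.E × Bool) : Option K.F :=
  Classical.epsilon (fun f => d ∈ K.bd f)

open Classical in
/-- the boundary of a set of faces: edges with exactly one side in `C` -/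
noncomputable def bdry (C : Finset K.F) : Finset K.E :=
  univ.filter (fun e => ¬ ((∃ f ∈ C, (e, true) ∈ K.bd (some f)) ↔ (∃ f ∈ C, (e, false) ∈ K.bd (some f))))

/-- edges on the outer boundary -/
noncomputable def outE : Finset K.E := ((K.bd none).map Prod.fst).toFinset

/-- `C` and its complement (with the outer face) are dual connected -/
def Bond (C : Finset K.F) : Prop :=
  C.Nonempty ∧
  (∀ f ∈ C, ∀ g ∈ C, Relation.ReflTransGen
    (fun a b => b ∈ C ∧ ∃ d, d ∈ K.bd (some a) ∧ rv d ∈ K.bd (some b)) f g) ∧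
  (∀ f g : Option K.F, (∀ x ∈ C, f ≠ some x) → (∀ x ∈ C, g ≠ some x) → Relation.ReflTransGen
    (fun a b => (∀ x ∈ C, b ≠ some x) ∧ ∃ d, d ∈ K.bd a ∧ rv d ∈ K.bd b) f g)

/-- A cotree: every inner face has a parent across the dart `dd f ∈ bd f`; potentials which are
trivial on all other edges. -/
structure Cotree where
  par : K.F → Option K.F
  dd : K.F → K.E × Bool
  rank : K.F → ℕ
  mem : ∀ f, dd f ∈ K.bd (some f)
  memr : ∀ f, rv (dd f) ∈ K.bd (par f)
  dec : ∀ f g, par f = some g → rank g < rank f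
  root : K.V
  pot : K.V → FreeGroup A
  pot_root : pot root = 1
  triv : ∀ d : K.E × Bool, (∀ f, (dd f).1 ≠ d.1) → pot (K.org d) * K.lt d = pot (K.org (rv d))

namespace Cotree

variable {K} (T : K.Cotree)

/-- `g` is a descendant of `f` (reflexive) -/
def Desc (f g : K.F) : Prop := Relation.ReflTransGen (fun a b => T.par a = some b) g f

open Classical in
noncomputable def sub (f : K.F) : Finset K.F := univ.filter (fun g => T.Desc f g)

/-- value of a dart -/
def c (d : K.E × Bool) : FreeGroup A := T.pot (K.org d) * K.lt d * (T.pot (K.org (rv d)))⁻¹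

end Cotree

/-- spanning tree by parent darts: `pd v = some d`, `org d = v`, the other end has smaller height -/
structure STree where
  pd : K.V → Option (K.E × Bool)
  hgt : K.V → ℕ
  root : K.V
  rt : ∀ v, pd v = none ↔ v = root
  or : ∀ v d, pd v = some d → K.org d = v
  dec : ∀ v d, pd v = some d → hgt (K.org (rv d)) < hgt v

namespace STree

variable {K} (T : K.STree)

def Step (v w : K.V) : Prop := ∃ d, T.pd v = some d ∧ K.org (rv d) = w

/-- edges on the tree path from `v` to the root -/
def Anc (v : K.V) (e : K.E) : Prop :=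
  ∃ w d, Relation.ReflTransGen T.Step v w ∧ T.pd w = some d ∧ d.1 = e

/-- edges of the tree -/
def Ed (e : K.E) : Prop := ∃ v d, T.pd v = some d ∧ d.1 = e

end STree

end PC

variable {p : Pat} {n : ℕ}

noncomputable instance instDecLet (p : Pat) (n : ℕ) : DecidableEq (Let p n) := Classical.decEq _

/-- all inner faces are squares: face `f` is read from its o-vertex, the first dart -/
structure SqK (σ : Equiv.Perm (Cel p n)) extends PC (Let p n) where
  q : F → Port p n
  sq : ∀ f : F, (bd (some f)).map (fun d => (lab d.1, d.2)) = relw σ (q f)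

/-- no reduction possible -/
def NoRed (σ : Equiv.Perm (Cel p n)) (u : FreeGroup (Let p n)) (k : ℕ) (z : Chn σ) : Prop :=
  ∀ k1 z1, 1 ≤ k1 → k1 ≤ k → Expr σ k1 1 z1 → ¬ Expr σ (k - k1) u (z - z1)

/-- `u` has area `k` -/
def MinA (σ : Equiv.Perm (Cel p n)) (u : FreeGroup (Let p n)) (k : ℕ) : Prop :=
  (∃ z, Expr σ k u z) ∧ ∀ k' z', Expr σ k' u z' → k ≤ k'

namespace SqK

variable {σ : Equiv.Perm (Cel p n)} (K : SqK σ)

/-- the outer word (positive reading) -/
def outw : List (Let p n × Bool) := winv (K.toPC.wd none)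

/-- group potentials: labelling of the vertices by group elements, consistent with the edges,
`1` at the base vertex of the outer face -/
structure GPot where
  π : K.V → Gp σ
  st : ∀ d : K.E × Bool, π (K.org d) * PresentedGroup.mk (rels σ) (K.toPC.lt d) = π (K.org (rv d))
  base : ∀ d ∈ (K.bd none).head?, π (K.org d) = 1

/-- chain of a set of faces -/
noncomputable def chn (P : K.GPot) (C : Finset K.F) : Chn σ :=
  ∑ f ∈ C, ∑ d ∈ ((K.bd (some f)).head?).toFinset, pch σ (P.π (K.org d)) (K.q f)

end SqK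

/-! ## Statements of part D -/

/-- (D1) van Kampen: realisation of an unreducible expression by a planar complex. -/
def StmtVK : Prop :=
  ∀ (p : Pat) (n : ℕ) (σ : Equiv.Perm (Cel p n)) (u : FreeGroup (Let p n)) (k : ℕ) (z : Chn σ),
    Expr σ k u z → NoRed σ u k z →
    ∃ (K : SqK σ) (P : K.GPot), Fintype.card K.F = k ∧ K.outw = u.toWord ∧ K.chn P univ = z

/-- (D2) spanning tree gives cotree; boundary of a subtree is contained in the fundamental cycle. -/
def StmtT1 : Prop :=
  ∀ (A : Type) (K : PC A) (T : K.STree), ∃ C : K.Cotree, C.root = T.root ∧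
    (∀ e, T.Ed e ↔ ∀ f, (C.dd f).1 ≠ e) ∧
    ∀ f, ∀ e ∈ K.bdry (C.sub f), e = (C.dd f).1 ∨ T.Anc (K.org (C.dd f)) e ∨
      T.Anc (K.org (rv (C.dd f))) e

/-- (D3) values of cotree edges, with chains -/
def StmtRec : Prop :=
  ∀ (p : Pat) (n : ℕ) (σ : Equiv.Perm (Cel p n)) (K : SqK σ) (P : K.GPot) (C : K.toPC.Cotree),
    P.π C.root = 1 →
    (∀ v, PresentedGroup.mk (rels σ) (C.pot v) = P.π v) ∧
    (∀ f, Expr σ (C.sub f).card (C.c (C.dd f)) (K.chn P (C.sub f)))

/-- (D4) replacement: removing the subtree of `f` and inserting another expression of its value. -/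
def StmtRepl : Prop :=
  ∀ (p : Pat) (n : ℕ) (σ : Equiv.Perm (Cel p n)) (K : SqK σ) (P : K.GPot) (C : K.toPC.Cotree),
    P.π C.root = 1 → (∀ d ∈ (K.bd none).head?, K.org d = C.root) →
    ∀ f k z, Expr σ k (C.c (C.dd f)) z →
      Expr σ (Fintype.card K.F - (C.sub f).card + k) (val K.outw) (K.chn P univ - K.chn P (C.sub f) + z)

/-- (D5) bonds: a bond `C` is the subtree of a face in some cotree rooted at the base vertex of the
outer face, and the value of its edge is conjugate to a word of weight `Σ_{bdry C}`. -/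
def StmtBond : Prop :=
  ∀ (A : Type) (K : PC A) (C : Finset K.F), K.Bond C → ∃ (T : K.Cotree) (f : K.F) (l : List (K.E × Bool))
    (v : FreeGroup A), T.sub f = C ∧ (∀ d ∈ (K.bd none).head?, K.org d = T.root) ∧
      (l.map Prod.fst).Nodup ∧ (l.map Prod.fst).toFinset = K.bdry C ∧
      T.c (T.dd f) = v * FreeGroup.mk (l.map (fun d => (K.lab d.1, d.2))) * v⁻¹

/-- (D6) bridge to gluing data (disc version).  `tpow` : no power `t^m`, `m ≠ 0`, has an expression with
at most `card F` relators, or the outer word itself is a power of `t` and no `t^m`, `m ≠ 0`, has an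
expression with fewer than `card F` relators. -/
def StmtBridge : Prop :=
  ∀ (p : Pat) (n : ℕ) (σ : Equiv.Perm (Cel p n)) (K : SqK σ) (P : K.GPot),
    NoRed σ (val K.outw) (Fintype.card K.F) (K.chn P univ) →
    (∀ (m : ℤ) (k : ℕ) (z : Chn σ), m ≠ 0 → Expr σ k (val (tw p n m)) z → Fintype.card K.F < k ∨
      (Fintype.card K.F ≤ k ∧ ∀ a ∈ K.outw, a.1 = Let.t)) →
    ∃ G : Glue σ, G.Red ∧ G.Lab ∧ G.Eul ∧ Fintype.card G.S = Fintype.card K.F ∧
      ∀ Y : ℕ, 2 * (Fintype.card G.S - domc G.X) + Y * (2 * (Fintype.card G.S - domc G.Y)) ≤ wtw Y K.outw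

/-- (D7) bridge for spheres: the outer face is itself the inverse of a square and the total chain of all
squares is not zero, while all shorter identities have chain zero. -/
def StmtBridgeS : Prop :=
  ∀ (p : Pat) (n : ℕ) (σ : Equiv.Perm (Cel p n)) (K : SqK σ) (P : K.GPot) (q0 : Port p n),
    K.outw = relw σ q0 →
    K.chn P univ - pch σ 1 q0 ≠ 0 →
    (∀ k z, k ≤ Fintype.card K.F → Expr σ k 1 z → z = 0) →
    (∀ (m : ℤ) (k : ℕ) (z : Chn σ), m ≠ 0 → ¬ Expr σ k (val (tw p n m)) z) →
    ∃ G : Glue σ, G.Red ∧ G.Lab ∧ G.Eul ∧ Fintype.card G.S = Fintype.card K.F + 1 ∧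
      domc G.X = Fintype.card G.S ∧ domc G.Y = Fintype.card G.S

end Vale.Agent.P201.Z
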