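import Vale.Agent.P201.Z.FinGlob
import Vale.Agent.P201.Z.FinLoc
import Vale.Agent.P201.Z.G.GMain

namespace Vale.Agent.P201.Z

theorem zero_div_of (hA : StmtA) :
    ∃ (G : Type) (_ : Group G), (∀ g : G, ∀ m : ℕ, 0 < m → g ^ m = 1 → g = 1) ∧
      ∃ a b : MonoidAlgebra (ZMod 2) G, a ≠ 0 ∧ b ≠ 0 ∧ a * b = 0 :=
  final hA stmtLoc stmtGlob stmtG

end Vale.Agent.P201.Z

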