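import Vale.Agent.P201.Z.G2
import Vale.Agent.P201.Z.G.G1

namespace Vale.Agent.P201.Z

/-- PART G -/
theorem stmtG : StmtG := by
  intro p hp n hn Y σ has hinj
  exact ⟨TF.torsion_free σ has, G1.zero_div σ hp hn Y hinj⟩

end Vale.Agent.P201.Z
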